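import Vale.Agent.P092.QT.H715.Alg

/-!
P092 (helper715), project Q, block [Q-2S]: the two sided algebra is not zero, the two norms are
proportional, nondegeneracy.
-/

set_option linter.all false

open scoped InnerProductSpace Topology ENNReal
open Filter ContinuousLinearMap MeasureTheory
open Vale.Agent.P092.H160
open Vale.Agent.P092.QT.H156.Sm
open Vale.Agent.P092.QT.H650

namespace Vale.Agent.P092.QT.H715.Q

section one

variable {Γ X G H K : Type} [Group Γ] [Group X] [Group G] [Group H]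
  [TopologicalSpace G] [TopologicalSpace H] [IsTopologicalGroup G] [IsTopologicalGroup H]
  [MeasurableSpace G] [BorelSpace G] [SecondCountableTopology G]
  [NormedAddCommGroup K] [InnerProductSpace ℂ K] [CompleteSpace K]
  {V : Γ →* (K →L[ℂ] K)} {ρ : X →* (K →L[ℂ] K)} {ω : K}
  {ι : X →* G} {κ : Γ →* H} {a b : G → K →L[ℂ] K} {μ : Measure G}

/-- The square integrals of a smooth field at all vectors. -/
theorem F1.lint (h1 : F1 ι κ ρ V ω μ) (ha : Smo ι κ ρ V ω μ a) (ζ : K) :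
    ∫⁻ x, ‖a x ζ‖ₑ ^ 2 ∂μ = nsq ω μ a * ‖ζ‖ₑ ^ 2 := by
  obtain ⟨hL, he⟩ := h1 a a ha ha ζ ζ
  have hi : Integrable (fun x => ‖a x ζ‖ ^ 2) μ := hL.integrable_norm_pow two_ne_zero
  have h5 : ∀ w : K, (⟪w, w⟫_ℂ).re = ‖w‖ ^ 2 := fun w => by
    have := inner_self_eq_norm_sq (𝕜 := ℂ) w
    simpa using this
  have h2 : ∫ x, ‖a x ζ‖ ^ 2 ∂μ = (nsq ω μ a).toReal * ‖ζ‖ ^ 2 := by
    have h3 := congrArg Complex.re he
    have hint : Integrable (fun x => ⟪a x ζ, a x ζ⟫_ℂ) μ := by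
      refine hi.mono' (hL.1.inner hL.1) (Eventually.of_forall fun x => ?_)
      rw [sq]
      exact norm_inner_le_norm _ _
    have h4 : (∫ x, ⟪a x ζ, a x ζ⟫_ℂ ∂μ).re = ∫ x, (⟪a x ζ, a x ζ⟫_ℂ).re ∂μ :=
      (integral_re hint).symm
    rw [h4, ip_self ha.l2] at h3
    simp only [h5] at h3
    rw [h3, Complex.re_ofReal_mul, h5]
  have h3 : ∫⁻ x, ‖a x ζ‖ₑ ^ 2 ∂μ = ENNReal.ofReal (∫ x, ‖a x ζ‖ ^ 2 ∂μ) := by
    rw [ofReal_integral_eq_lintegral_ofReal hi (Eventually.of_forall fun x => by positivity)]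
    refine lintegral_congr fun x => ?_
    rw [ENNReal.ofReal_pow (norm_nonneg _), ofReal_norm_eq_enorm]
  rw [h3, h2, ENNReal.ofReal_mul' (by positivity), ENNReal.ofReal_pow (norm_nonneg _),
    ofReal_norm_eq_enorm, ENNReal.ofReal_toReal (nsq_lt_top ha.l2).ne]

theorem field_eq_zero (h : TRep ρ ω) (hb : Fd ι ρ b) (h0 : ∀ x, b x ω = 0) : b = 0 := by
  funext x
  refine h.ext_op fun γ => ?_
  have h1 := hb.equiv γ⁻¹ x
  have h2 := congrArg (fun T : K →L[ℂ] K => T ω) h1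
  simp only [mul_ap, inv_inv] at h2
  rw [h0] at h2
  have h3 : ρ γ (ρ γ⁻¹ (b x (ρ γ ω))) = 0 := by rw [← h2, map_zero]
  rw [h.apply_inv] at h3
  rw [h3]; rfl

theorem zero_of_nsq [μ.IsOpenPosMeasure] (hb : Fd ι ρ b) (h0 : nsq ω μ b = 0) :
    ∀ x, b x ω = 0 := by
  have hc := hb.continuous_apply ω
  have h1 : (fun x => ‖b x ω‖ₑ ^ 2) =ᵐ[μ] 0 := by
    rw [nsq, lintegral_eq_zero_iff ((hc.enorm.measurable).pow_const 2)] at h0
    exact h0
  have h2 : (fun x => b x ω) =ᵐ[μ] fun _ => 0 := by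
    filter_upwards [h1] with x hx
    simpa using hx
  exact fun x => congrFun (Continuous.ae_eq_iff_eq μ hc continuous_const |>.1 h2) x

theorem nsq_ne_zero [μ.IsOpenPosMeasure] (h : TRep ρ ω) (hb : Fd ι ρ b) (h0 : b ≠ 0) :
    nsq ω μ b ≠ 0 := fun h1 => h0 (field_eq_zero h hb (zero_of_nsq hb h1))

theorem adj_mul (S T : K →L[ℂ] K) : adjoint (S * T) = adjoint T * adjoint S := star_mul S T

theorem adj_adj (S : K →L[ℂ] K) : adjoint (adjoint S) = S := star_star S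

theorem F1.eq_zero (h1 : F1 ι κ ρ V ω μ) (ha : Smo ι κ ρ V ω μ a) (hn : nsq ω μ a ≠ 0) {ζ : K}
    (h : ∀ x, a x ζ = 0) : ζ = 0 := by
  have h2 := h1.lint ha ζ
  simp only [h, enorm_zero] at h2
  rw [zero_pow two_ne_zero, lintegral_zero] at h2
  have h3 := (mul_eq_zero.1 h2.symm).resolve_left hn
  have h4 : ‖ζ‖ₑ = 0 := by
    by_contra h5
    exact (pow_ne_zero 2 h5) h3
  exact enorm_eq_zero.1 h4

end one

section two

variable {Γ X Y G H K : Type} [Group Γ] [Group X] [Group Y] [Group G] [Group H]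
  [Countable X] [Countable Y]
  [TopologicalSpace G] [TopologicalSpace H] [IsTopologicalGroup G] [IsTopologicalGroup H]
  [MeasurableSpace G] [BorelSpace G] [SecondCountableTopology G]
  [MeasurableSpace H] [BorelSpace H] [SecondCountableTopology H]
  [NormedAddCommGroup K] [InnerProductSpace ℂ K] [CompleteSpace K]
  {V W : Γ →* (K →L[ℂ] K)} {f : X →* Γ} {ρ : X →* (K →L[ℂ] K)} {f' : Y →* Γ}
  {ρ' : Y →* (K →L[ℂ] K)} {ω ω' : K}
  {p : Γ →* G} {κ : Γ →* H} {a b x y : G → K →L[ℂ] K} {μ : Measure G} {ν : Measure H}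
  [μ.IsMulLeftInvariant] [ν.IsMulLeftInvariant]

/-- (a) The two sided algebra is not zero. -/
theorem tws_ne [μ.IsMulRightInvariant] [μ.IsOpenPosMeasure] (D : Dbl V W f ρ f' ρ' ω ω')
    (hκ : DenseRange κ) (hp : DenseRange p) (h1 : F1 (p.comp f) κ ρ V ω μ)
    (hT : ∃ b, Smo (p.comp f) κ ρ V ω μ b ∧ b ≠ 0)
    (hS : ∃ c, Smo (κ.comp f') p ρ' W ω' ν c ∧ c ≠ 0) :
    ∃ b, TwS V f ρ ω ω' p κ μ ν b ∧ b ≠ 0 := by
  obtain ⟨b, hb, hb0⟩ := hT
  obtain ⟨c, hc, hc0⟩ := hS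
  set a : G → K →L[ℂ] K := fl p W c with ha
  have hfa : Fd (p.comp f) ρ a := fd_fl D.symm hp hc.toFd hc.acont
  have hca : ACont κ V a := acont_fl D.symm hp hc.toFd hc.acont
  have hfl : fl κ V a = c := fl_fl D.symm hp hκ hc.toFd hc.acont
  have ha0 : a ≠ 0 := by
    intro h0
    refine hc0 ?_
    rw [← hfl, h0]
    exact fl_zero D hκ
  have hmem : ∀ y, TwS V f ρ ω ω' p κ μ ν (fun x => a x * b (x * y)) := by
    intro y
    have hby := hb.rt y
    refine ⟨⟨hfa.mul hby.toFd, ACont.mul D.fr hca hby.acont hfa.bdd hby.bdd,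
      l2_mul hfa hby.toFd hby.l2⟩, ?_⟩
    rw [fl_mul D hκ hfa hby.toFd hca hby.acont, hfl]
    exact L2.mul_right D.fr'.reg hc.toFd (fd_fl D hκ hby.toFd hby.acont) hc.l2
  by_contra hno
  push Not at hno
  have hz : ∀ y x, a x * b (x * y) = 0 := fun y x => congrFun (hno _ (hmem y)) x
  refine ha0 ?_
  funext x
  have hbs := hb.adj D.fr
  have hn : nsq ω μ (fun x => adjoint (b x)) ≠ 0 := by
    rw [nsq_adj D.fr.reg hb.toFd.continuous hb.toFd.equiv]
    exact nsq_ne_zero D.fr.reg hb.toFd hb0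
  have h3 : adjoint (a x) = 0 := by
    refine ContinuousLinearMap.ext fun ζ => ?_
    refine h1.eq_zero hbs hn fun z => ?_
    have h4 := hz (x⁻¹ * z) x
    rw [mul_inv_cancel_left] at h4
    have h5 : adjoint (b z) * adjoint (a x) = 0 := by rw [← adj_mul, h4, map_zero]
    exact congrArg (fun T : K →L[ℂ] K => T ζ) h5
  have h6 := congrArg adjoint h3
  rw [adj_adj, map_zero] at h6
  exact h6

/-- The flip of a right translate, as a smooth field of the second frame. -/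
theorem smo_rt' [μ.IsMulRightInvariant] (D : Dbl V W f ρ f' ρ' ω ω') (hκ : DenseRange κ)
    (hp : DenseRange p) (hb : TwS V f ρ ω ω' p κ μ ν b) (z : G) :
    Smo (κ.comp f') p ρ' W ω' ν (fun h => al κ V h b z) := by
  have h1 := (hb.rt D hκ hp z).smo' D hκ
  have h2 : fl κ V (fun x => b (x * z)) = fun h => al κ V h b z := by
    funext h
    change al κ V h (fun x => b (x * z)) 1 = _
    rw [al_rt, one_mul]
  rw [h2] at h1
  exact h1

theorem al_eq_al (D : Dbl V W f ρ f' ρ' ω ω') (hκ : DenseRange κ)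
    (hp : DenseRange p) (hb : TwS V f ρ ω ω' p κ μ ν b) (z : G) :
    (fun h => al κ V h b z) = al p W z (fl κ V b) := by
  funext h
  exact (al_fl D hκ hp hb.smo.toFd hb.smo.acont z h).symm

/-- The norm of the orbit under the source group, at any place. -/
theorem nsq_orb (D : Dbl V W f ρ f' ρ' ω ω') (hκ : DenseRange κ)
    (hp : DenseRange p) (hb : TwS V f ρ ω ω' p κ μ ν b) (z : G) :
    nsq ω' ν (fun h => al κ V h b z) = nsq ω' ν (fl κ V b) := by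
  rw [al_eq_al D hκ hp hb z]
  exact lintegral_al D.fr' hp (hb.smo' D hκ).toFd (hb.smo' D hκ).acont z

theorem ip_orb (D : Dbl V W f ρ f' ρ' ω ω') (hκ : DenseRange κ)
    (hp : DenseRange p) (ha : TwS V f ρ ω ω' p κ μ ν a) (hb : TwS V f ρ ω ω' p κ μ ν b) (z : G) :
    ip ω' ν (fun h => al κ V h a z) (fun h => al κ V h b z) =
      ip ω' ν (fl κ V a) (fl κ V b) := by
  rw [al_eq_al D hκ hp ha z, al_eq_al D hκ hp hb z]
  exact ip_al D.fr' hp (ha.smo' D hκ) (hb.smo' D hκ) z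

/-- The second frame, at any place: pointwise form of (I alpha). -/
theorem lint_orb [μ.IsMulRightInvariant] (D : Dbl V W f ρ f' ρ' ω ω') (hκ : DenseRange κ)
    (hp : DenseRange p) (h2 : F1 (κ.comp f') p ρ' W ω' ν) (hb : TwS V f ρ ω ω' p κ μ ν b) (z : G)
    (ζ : K) : ∫⁻ h, ‖al κ V h b z ζ‖ₑ ^ 2 ∂ν = nsq ω' ν (fl κ V b) * ‖ζ‖ₑ ^ 2 := by
  rw [h2.lint (smo_rt' D hκ hp hb z) ζ, nsq_orb D hκ hp hb z]

/-- Pointwise form of (I alpha). -/
theorem orb_pt [μ.IsMulRightInvariant] (D : Dbl V W f ρ f' ρ' ω ω') (hκ : DenseRange κ)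
    (hp : DenseRange p) (h2 : F1 (κ.comp f') p ρ' W ω' ν) (ha : TwS V f ρ ω ω' p κ μ ν a)
    (hb : TwS V f ρ ω ω' p κ μ ν b) (z : G) (ζ η : K) :
    MemLp (fun h => al κ V h a z ζ) 2 ν ∧
    ∫ h, ⟪al κ V h a z ζ, al κ V h b z η⟫_ℂ ∂ν = ip ω' ν (fl κ V a) (fl κ V b) * ⟪ζ, η⟫_ℂ := by
  have h3 := h2 _ _ (smo_rt' D hκ hp ha z) (smo_rt' D hκ hp hb z) ζ η
  rw [ip_orb D hκ hp ha hb z] at h3
  exact h3

theorem nsq_al_mul (D : Dbl V W f ρ f' ρ' ω ω') (hκ : DenseRange κ)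
    (ha : Smo (p.comp f) κ ρ V ω μ a) (hb : Smo (p.comp f) κ ρ V ω μ b) (h : H) :
    nsq ω μ (fun x => al κ V h b x * a x) =
      nsq ω μ (fun x => al κ V h⁻¹ (fun x => adjoint (a x)) x * adjoint (b x)) := by
  have hs := smo_al D.fr hκ hb h
  have e1 := nsq_adj (μ := μ) D.fr.reg (hs.toFd.mul ha.toFd).continuous (hs.toFd.mul ha.toFd).equiv
  have has := ha.adj D.fr
  have hbs := hb.adj D.fr
  have hsm : Smo (p.comp f) κ ρ V ω μ
      (fun x => adjoint (a x) * al κ V h (fun x => adjoint (b x)) x) :=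
    has.mul D.fr (smo_al D.fr hκ hbs h)
  have e2 : (fun x => adjoint (al κ V h b x * a x)) =
      fun x => adjoint (a x) * al κ V h (fun x => adjoint (b x)) x := by
    funext x
    rw [adj_mul, al_adj D.fr hκ hb.acont]
  rw [← e1, e2]
  have e3 := lintegral_al (μ := μ) D.fr hκ hsm.toFd hsm.acont h⁻¹
  unfold nsq
  rw [← e3]
  refine lintegral_congr fun x => ?_
  rw [al_mul D.fr hκ has.acont (acont_al D.fr hκ hbs.acont h) has.bdd
    (smo_al D.fr hκ hbs h).bdd h⁻¹ x, al_al D.fr hκ hbs.acont, inv_mul_cancel,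
    al_one D.fr hκ hbs.acont]

theorem lint_al_mul [μ.IsMulRightInvariant] [SFinite μ] [SFinite ν]
    (D : Dbl V W f ρ f' ρ' ω ω') (hκ : DenseRange κ)
    (hp : DenseRange p) (h2 : F1 (κ.comp f') p ρ' W ω' ν) (hb : TwS V f ρ ω ω' p κ μ ν b)
    (hx : Continuous x) :
    ∫⁻ h, nsq ω μ (fun z => al κ V h b z * x z) ∂ν = nsq ω' ν (fl κ V b) * nsq ω μ x := by
  unfold nsq
  have hc : Continuous fun q : H × G => ‖(al κ V q.1 b q.2 * x q.2) ω‖ₑ ^ 2 := by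
    have h3 := continuous_al_uncurry D.fr hκ hb.smo.toFd hb.smo.acont
    have h4 : Continuous fun q : H × G => (al κ V q.1 b q.2 * x q.2) ω :=
      (h3.mul (hx.comp continuous_snd)).clm_apply continuous_const
    exact (ENNReal.continuous_pow 2).comp h4.enorm
  rw [lintegral_lintegral_swap hc.measurable.aemeasurable]
  have h5 : ∀ z, ∫⁻ h, ‖(al κ V h b z * x z) ω‖ₑ ^ 2 ∂ν =
      (∫⁻ h, ‖fl κ V b h ω'‖ₑ ^ 2 ∂ν) * ‖x z ω‖ₑ ^ 2 := fun z => by
    simp only [mul_ap]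
    exact lint_orb D hκ hp h2 hb z _
  simp_rw [h5]
  rw [lintegral_const_mul']
  exact (nsq_lt_top (hb.smo' D hκ).l2).ne

/-- (b) The two norms are proportional. -/
theorem nsq_mul_nsq [μ.IsMulRightInvariant] [SFinite μ] [SFinite ν] [ν.IsInvInvariant]
    (D : Dbl V W f ρ f' ρ' ω ω') (hκ : DenseRange κ)
    (hp : DenseRange p) (h2 : F1 (κ.comp f') p ρ' W ω' ν) (ha : TwS V f ρ ω ω' p κ μ ν a)
    (hb : TwS V f ρ ω ω' p κ μ ν b) :
    nsq ω' ν (fl κ V b) * nsq ω μ a = nsq ω' ν (fl κ V a) * nsq ω μ b := by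
  have e1 := lint_al_mul D hκ hp h2 hb ha.smo.toFd.continuous
  have has := ha.adj D hκ
  have hbs := hb.adj D hκ
  have e2 := lint_al_mul D hκ hp h2 has hbs.smo.toFd.continuous
  rw [nsq_adj D.fr.reg hb.smo.toFd.continuous hb.smo.toFd.equiv, fl_adj D hκ ha.smo.acont,
    nsq_adj D.fr'.reg (ha.smo' D hκ).toFd.continuous (ha.smo' D hκ).toFd.equiv] at e2
  rw [← e1, ← e2]
  rw [← lintegral_inv_eq_self (μ := ν)
    (fun h => nsq ω μ (fun z => al κ V h (fun x => adjoint (a x)) z * adjoint (b z)))]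
  exact lintegral_congr fun h => nsq_al_mul D hκ ha.smo hb.smo h

/-- Polarisation. -/
theorem inner_of_norm {E F : Type} [NormedAddCommGroup E] [InnerProductSpace ℂ E]
    [NormedAddCommGroup F] [InnerProductSpace ℂ F] {u v : E} {u' v' : F} {c : ℝ}
    (h : ∀ z : ℂ, ‖u' + z • v'‖ ^ 2 = c * ‖u + z • v‖ ^ 2) : ⟪u', v'⟫_ℂ = (c : ℂ) * ⟪u, v⟫_ℂ := by
  have h1 := h 1
  have h2 := h (-1)
  have h3 := h Complex.I
  have h4 := h (-Complex.I)
  rw [one_smul, one_smul] at h1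
  rw [neg_smul, neg_smul, one_smul, one_smul, ← sub_eq_add_neg, ← sub_eq_add_neg] at h2
  rw [neg_smul, neg_smul, ← sub_eq_add_neg, ← sub_eq_add_neg] at h4
  rw [inner_eq_sum_norm_sq_div_four, inner_eq_sum_norm_sq_div_four (𝕜 := ℂ) u]
  simp only [RCLike.I_to_complex]
  have g1 : ((‖u' + v'‖ : ℂ)) ^ 2 = c * (‖u + v‖ : ℂ) ^ 2 := by exact_mod_cast h1
  have g2 : ((‖u' - v'‖ : ℂ)) ^ 2 = c * (‖u - v‖ : ℂ) ^ 2 := by exact_mod_cast h2
  have g3 : ((‖u' + Complex.I • v'‖ : ℂ)) ^ 2 = c * (‖u + Complex.I • v‖ : ℂ) ^ 2 := by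
    exact_mod_cast h3
  have g4 : ((‖u' - Complex.I • v'‖ : ℂ)) ^ 2 = c * (‖u - Complex.I • v‖ : ℂ) ^ 2 := by
    exact_mod_cast h4
  simp only [Complex.coe_algebraMap] at *
  rw [g1, g2, g3, g4]
  ring

/-- (b) There is a constant which relates the two inner products. -/
theorem exists_const [μ.IsMulRightInvariant] [SFinite μ] [SFinite ν] [ν.IsInvInvariant]
    [μ.IsOpenPosMeasure] [ν.IsOpenPosMeasure]
    (D : Dbl V W f ρ f' ρ' ω ω') (hκ : DenseRange κ)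
    (hp : DenseRange p) (h2 : F1 (κ.comp f') p ρ' W ω' ν) :
    ∃ c : ℝ, 0 < c ∧ ∀ a b, TwS V f ρ ω ω' p κ μ ν a → TwS V f ρ ω ω' p κ μ ν b →
      ip ω' ν (fl κ V a) (fl κ V b) = (c : ℂ) * ip ω μ a b := by
  have hfl0 : ∀ b, TwS V f ρ ω ω' p κ μ ν b → b ≠ 0 → fl κ V b ≠ 0 := by
    intro b hb hb0 h0
    apply hb0
    rw [← fl_fl D hκ hp hb.smo.toFd hb.smo.acont, h0]
    exact fl_zero D.symm hp
  have key : ∃ c : ℝ, 0 < c ∧ ∀ a, TwS V f ρ ω ω' p κ μ ν a →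
      (nsq ω' ν (fl κ V a)).toReal = c * (nsq ω μ a).toReal := by
    by_cases hne : ∃ b, TwS V f ρ ω ω' p κ μ ν b ∧ b ≠ 0
    · obtain ⟨b, hb, hb0⟩ := hne
      have n1 := nsq_ne_zero (μ := μ) D.fr.reg hb.smo.toFd hb0
      have n2 := nsq_ne_zero (μ := ν) D.fr'.reg (hb.smo' D hκ).toFd (hfl0 b hb hb0)
      have t1 := (nsq_lt_top (μ := μ) hb.smo.l2).ne
      have t2 := (nsq_lt_top (μ := ν) (hb.smo' D hκ).l2).ne
      have p1 : 0 < (nsq ω μ b).toReal := ENNReal.toReal_pos n1 t1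
      have p2 : 0 < (nsq ω' ν (fl κ V b)).toReal := ENNReal.toReal_pos n2 t2
      refine ⟨(nsq ω' ν (fl κ V b)).toReal / (nsq ω μ b).toReal, div_pos p2 p1, fun a ha => ?_⟩
      have h3 := nsq_mul_nsq D hκ hp h2 ha hb
      have h4 := congrArg ENNReal.toReal h3
      rw [ENNReal.toReal_mul, ENNReal.toReal_mul] at h4
      field_simp
      linarith
    · push Not at hne
      refine ⟨1, one_pos, fun a ha => ?_⟩
      have h3 : a = fun _ => 0 := hne a ha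
      have h4 : fl κ V a = fun _ => 0 := by rw [h3]; exact fl_zero D hκ
      rw [h4, h3]
      simp [nsq]
  obtain ⟨c, hc, hk⟩ := key
  refine ⟨c, hc, fun a b ha hb => ?_⟩
  have ha' := ha.smo' D hκ
  have hb' := hb.smo' D hκ
  rw [ip_eq_inner ha' hb', ip_eq_inner ha.smo hb.smo]
  refine inner_of_norm fun z => ?_
  have hz := ha.add D hκ (hb.smul D hκ z)
  have hz' := hz.smo' D hκ
  have e1 : vec ha.smo + z • vec hb.smo = vec hz.smo := by
    rw [← vec_smul, ← vec_add]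
  have e2 : vec ha' + z • vec hb' = vec hz' := by
    rw [← vec_smul, ← vec_add]
    refine vec_congr _ _ fun h => ?_
    rw [fl_add D hκ ha.smo.acont (hb.smul D hκ z).smo.acont, fl_smul D hκ z hb.smo.acont]
  rw [e1, e2]
  have e3 := hk _ hz
  have e4 : ‖vec hz'‖ ^ 2 = (nsq ω' ν (fl κ V (fun x => a x + z • b x))).toReal :=
    Vale.Agent.P092.QT.H156.Sm.norm_toLp_sq hz'.l2
  have e5 : ‖vec hz.smo‖ ^ 2 = (nsq ω μ (fun x => a x + z • b x)).toReal :=
    Vale.Agent.P092.QT.H156.Sm.norm_toLp_sq hz.smo.l2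
  rw [e4, e5, e3]

/-- (c) Nondegeneracy. -/
theorem nondeg [μ.IsMulRightInvariant] [μ.IsOpenPosMeasure]
    (D : Dbl V W f ρ f' ρ' ω ω') (hκ : DenseRange κ)
    (hp : DenseRange p) (h1 : F1 (p.comp f) κ ρ V ω μ)
    (hne : ∃ b, TwS V f ρ ω ω' p κ μ ν b ∧ b ≠ 0) (x0 : G) {ζ : K}
    (h : ∀ a, TwS V f ρ ω ω' p κ μ ν a → a x0 ζ = 0) : ζ = 0 := by
  obtain ⟨b, hb, hb0⟩ := hne
  refine h1.eq_zero hb.smo (nsq_ne_zero D.fr.reg hb.smo.toFd hb0) fun x => ?_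
  have h3 := h _ (hb.rt D hκ hp (x0⁻¹ * x))
  rwa [mul_inv_cancel_left] at h3

end two

end Vale.Agent.P092.QT.H715.Q
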