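import Vale.Agent.P092.QT.H715.QDefs
import Vale.Agent.P092.QT.H156.Int

/-!
P092 (helper715), project Q, block [Q-ALG]: the flip of the fields between the two frames and the two
sided algebra.
-/

set_option linter.all false

open scoped InnerProductSpace Topology ENNReal
open Filter ContinuousLinearMap MeasureTheory
open Vale.Agent.P092.H160
open Vale.Agent.P092.QT.H156.Sm
open Vale.Agent.P092.QT.H650

namespace Vale.Agent.P092.QT.H715.Q

section alg

variable {Γ X Y G H K : Type} [Group Γ] [Group X] [Group Y] [Group G] [Group H]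
  [TopologicalSpace G] [TopologicalSpace H] [IsTopologicalGroup G] [IsTopologicalGroup H]
  [NormedAddCommGroup K] [InnerProductSpace ℂ K] [CompleteSpace K]
  {V W : Γ →* (K →L[ℂ] K)} {f : X →* Γ} {ρ : X →* (K →L[ℂ] K)} {f' : Y →* Γ}
  {ρ' : Y →* (K →L[ℂ] K)} {ω ω' : K}
  {p : Γ →* G} {κ : Γ →* H} {a b : G → K →L[ℂ] K}

theorem Dbl.symm (D : Dbl V W f ρ f' ρ' ω ω') : Dbl W V f' ρ' f ρ ω' ω where
  fr := D.fr'
  fr' := D.fr
  sec := D.sec'
  sec' := D.sec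
  ker := fun T => (D.ker T).symm

theorem Dbl.decomp (D : Dbl V W f ρ f' ρ' ω ω') (x : X) : ∃ n, f n = 1 ∧ ρ x = W (f x) * ρ n := by
  obtain ⟨x0, h1, h2⟩ := D.sec (f x)
  refine ⟨x0⁻¹ * x, by rw [map_mul, map_inv, h1, inv_mul_cancel], ?_⟩
  rw [← h2, ← map_mul, mul_inv_cancel_left]

theorem Dbl.sec_inv (D : Dbl V W f ρ f' ρ' ω ω') {x : X} {g : Γ} (h : ρ x = W g) :
    ρ x⁻¹ = W g⁻¹ := by
  rw [← D.fr.reg.adj, h, D.fr'.adj]

theorem Dbl.leg (D : Dbl V W f ρ f' ρ' ω ω') (hb : Fd (p.comp f) ρ b) (g : Γ) (x : G) :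
    b (p g * x) = W g * b x * W g⁻¹ := by
  obtain ⟨x0, h1, h2⟩ := D.sec g
  have h3 := hb.equiv x0 x
  rw [MonoidHom.comp_apply, h1, h2, D.sec_inv h2] at h3
  exact h3

theorem Dbl.com (D : Dbl V W f ρ f' ρ' ω ω') (hb : Fd (p.comp f) ρ b) {n : X} (hn : f n = 1)
    (x : G) : b x * ρ n = ρ n * b x := by
  have h3 := hb.equiv n x
  rw [MonoidHom.comp_apply, hn, map_one, one_mul] at h3
  calc b x * ρ n = ρ n * b x * ρ n⁻¹ * ρ n := by rw [← h3]
    _ = ρ n * b x := by rw [mul_assoc, rho_inv_mul, mul_one]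

/-- The equivariance from the leg and the kernel. -/
theorem Dbl.equiv_of (D : Dbl V W f ρ f' ρ' ω ω') (h1 : ∀ g x, b (p g * x) = W g * b x * W g⁻¹)
    (h2 : ∀ n, f n = 1 → ∀ x, b x * ρ n = ρ n * b x) (x : X) (y : G) :
    b (p.comp f x * y) = ρ x * b y * ρ x⁻¹ := by
  obtain ⟨n, hn, h3⟩ := D.decomp x
  have h4 : ρ x⁻¹ = ρ n⁻¹ * W (f x)⁻¹ := by
    rw [← D.fr.reg.adj x, h3, ← D.fr'.adj, ← D.fr.reg.adj n]
    exact star_mul _ _
  rw [MonoidHom.comp_apply, h1, h3, h4]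
  have h5 : b y = ρ n * b y * ρ n⁻¹ := by
    rw [← h2 n hn, mul_assoc, rho_mul_inv, mul_one]
  calc W (f x) * b y * W (f x)⁻¹ = W (f x) * (ρ n * b y * ρ n⁻¹) * W (f x)⁻¹ := by rw [← h5]
    _ = _ := by simp only [mul_assoc]

variable (D : Dbl V W f ρ f' ρ' ω ω') (hκ : DenseRange κ) (hp : DenseRange p)

include D

theorem al_eq_mul (hκ : DenseRange κ) (hb : ACont κ V b) (k h : H) (x : G) :
    al κ V (k * h) b x = al κ V k (al κ V h b) x := (al_al D.fr hκ hb k h x).symm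

/-- The flipped field is equivariant and uniformly continuous. -/
theorem fd_fl (hκ : DenseRange κ) (hf : Fd (p.comp f) ρ b) (hb : ACont κ V b) :
    Fd (κ.comp f') ρ' (fl κ V b) where
  equiv := by
    refine D.symm.equiv_of (fun g h => ?_) (fun n hn h => ?_)
    · change al κ V (κ g * h) b 1 = V g * al κ V h b 1 * V g⁻¹
      rw [← al_al D.fr hκ hb, al_coe D.fr hκ (acont_al D.fr hκ hb h)]
      rfl
    · exact (D.ker (al κ V h b 1)).1
        (fun m hm => D.com (fd_al D.fr hκ hf hb h) hm 1) n hn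
  bdd := by
    obtain ⟨C, hC⟩ := hf.bdd
    exact ⟨C, fun h => (norm_al_le D.fr hκ hb h 1).trans (hC 1)⟩
  rcont := fun ε hε => by
    obtain ⟨U, hU, h1⟩ := al_unif D.fr hκ hb hε
    exact ⟨U, hU, fun y hy x => h1 y hy x 1⟩

theorem acont_fl (hκ : DenseRange κ) (hf : Fd (p.comp f) ρ b) (hb : ACont κ V b) :
    ACont p W (fl κ V b) := fun ε hε => by
  obtain ⟨U, hU, h1⟩ := hf.rcont ε hε
  refine ⟨U, hU, fun g hg h => ?_⟩
  change ‖W g * al κ V h b 1 * W g⁻¹ - al κ V h b 1‖ ≤ ε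
  rw [← D.leg (fd_al D.fr hκ hf hb h) g 1, mul_one]
  have h2 : al κ V h b (p g) - al κ V h b 1 = al κ V h (fun x => b (x * p g) - b x) 1 := by
    rw [al_sub D.fr hκ (ACont.rt hb (p g)) hb, al_rt, one_mul]
  rw [h2]
  exact (norm_al_le D.fr hκ ((ACont.rt hb (p g)).sub hb) h 1).trans (h1 _ hg 1)

/-- The second action on the flipped field is the right translation of the field. -/
theorem al_fl (hκ : DenseRange κ) (hp : DenseRange p) (hf : Fd (p.comp f) ρ b)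
    (hb : ACont κ V b) (x : G) (h : H) : al p W x (fl κ V b) h = al κ V h b x := by
  refine al_unique D.fr' hp (acont_fl D hκ hf hb) ?_
  have h1 : ∀ g, cj W g (fl κ V b) h = al κ V h b (p g) := fun g => by
    change W g * al κ V h b 1 * W g⁻¹ = _
    rw [← D.leg (fd_al D.fr hκ hf hb h) g 1, mul_one]
  simp only [h1]
  exact ((fd_al D.fr hκ hf hb h).continuous.tendsto x).comp tendsto_comap

theorem fl_fl (hκ : DenseRange κ) (hp : DenseRange p) (hf : Fd (p.comp f) ρ b)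
    (hb : ACont κ V b) : fl p W (fl κ V b) = b := by
  funext x
  change al p W x (fl κ V b) 1 = b x
  rw [al_fl D hκ hp hf hb, al_one D.fr hκ hb]

theorem fl_rt (hκ : DenseRange κ) (hp : DenseRange p) (hf : Fd (p.comp f) ρ b)
    (hb : ACont κ V b) (y : G) : fl κ V (fun x => b (x * y)) = al p W y (fl κ V b) := by
  funext h
  rw [al_fl D hκ hp hf hb]
  change al κ V h (fun x => b (x * y)) 1 = _
  rw [al_rt, one_mul]

theorem fl_al (hκ : DenseRange κ) (hb : ACont κ V b) (k : H) :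
    fl κ V (al κ V k b) = fun h => fl κ V b (h * k) := by
  funext h
  exact al_al D.fr hκ hb h k 1

theorem fl_one (hκ : DenseRange κ) (hb : ACont κ V b) : fl κ V b 1 = b 1 :=
  al_one D.fr hκ hb 1

theorem fl_add (hκ : DenseRange κ) (ha : ACont κ V a) (hb : ACont κ V b) :
    fl κ V (fun x => a x + b x) = fun h => fl κ V a h + fl κ V b h := by
  funext h
  exact al_add D.fr hκ ha hb h 1

theorem fl_smul (hκ : DenseRange κ) (c : ℂ) (hb : ACont κ V b) :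
    fl κ V (fun x => c • b x) = fun h => c • fl κ V b h := by
  funext h
  exact al_smul D.fr hκ hb c h 1

theorem fl_mul (hκ : DenseRange κ) (hfa : Fd (p.comp f) ρ a) (hfb : Fd (p.comp f) ρ b)
    (ha : ACont κ V a) (hb : ACont κ V b) :
    fl κ V (fun x => a x * b x) = fun h => fl κ V a h * fl κ V b h := by
  funext h
  exact al_mul D.fr hκ ha hb hfa.bdd hfb.bdd h 1

theorem fl_adj (hκ : DenseRange κ) (hb : ACont κ V b) :
    fl κ V (fun x => adjoint (b x)) = fun h => adjoint (fl κ V b h) := by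
  funext h
  exact al_adj D.fr hκ hb h 1

theorem fl_zero (hκ : DenseRange κ) :
    fl κ V (fun _ : G => (0 : K →L[ℂ] K)) = fun _ => 0 := by
  funext h
  exact al_zero D.fr hκ h 1

/-- The flip is injective. -/
theorem fl_inj (hκ : DenseRange κ) (hp : DenseRange p) (hfa : Fd (p.comp f) ρ a)
    (ha : ACont κ V a) (hfb : Fd (p.comp f) ρ b) (hb : ACont κ V b) (h : fl κ V a = fl κ V b) :
    a = b := by
  rw [← fl_fl D hκ hp hfa ha, h, fl_fl D hκ hp hfb hb]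

end alg

section tws

variable {Γ X Y G H K : Type} [Group Γ] [Group X] [Group Y] [Group G] [Group H]
  [Countable X] [Countable Y]
  [TopologicalSpace G] [TopologicalSpace H] [IsTopologicalGroup G] [IsTopologicalGroup H]
  [MeasurableSpace G] [BorelSpace G] [SecondCountableTopology G]
  [MeasurableSpace H] [BorelSpace H] [SecondCountableTopology H]
  [NormedAddCommGroup K] [InnerProductSpace ℂ K] [CompleteSpace K]
  {V W : Γ →* (K →L[ℂ] K)} {f : X →* Γ} {ρ : X →* (K →L[ℂ] K)} {f' : Y →* Γ}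
  {ρ' : Y →* (K →L[ℂ] K)} {ω ω' : K}
  {p : Γ →* G} {κ : Γ →* H} {a b : G → K →L[ℂ] K} {μ : Measure G} {ν : Measure H}
  [μ.IsMulLeftInvariant] [ν.IsMulLeftInvariant]

/-- The flipped field is smooth for the second frame. -/
theorem TwS.smo' (D : Dbl V W f ρ f' ρ' ω ω') (hκ : DenseRange κ) (hb : TwS V f ρ ω ω' p κ μ ν b) :
    Smo (κ.comp f') p ρ' W ω' ν (fl κ V b) where
  toFd := fd_fl D hκ hb.smo.toFd hb.smo.acont
  acont := acont_fl D hκ hb.smo.toFd hb.smo.acont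
  l2 := hb.l2'

theorem TwS.symm (D : Dbl V W f ρ f' ρ' ω ω') (hκ : DenseRange κ) (hp : DenseRange p)
    (hb : TwS V f ρ ω ω' p κ μ ν b) : TwS W f' ρ' ω' ω κ p ν μ (fl κ V b) where
  smo := hb.smo' D hκ
  l2' := by
    rw [fl_fl D hκ hp hb.smo.toFd hb.smo.acont]
    exact hb.smo.l2

theorem TwS.of_fl (D : Dbl V W f ρ f' ρ' ω ω') (hκ : DenseRange κ) {b : G → K →L[ℂ] K}
    (h1 : Smo (p.comp f) κ ρ V ω μ b) (h2 : Smo (κ.comp f') p ρ' W ω' ν (fl κ V b)) :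
    TwS V f ρ ω ω' p κ μ ν b := ⟨h1, h2.l2⟩

theorem TwS.zero (D : Dbl V W f ρ f' ρ' ω ω') (hκ : DenseRange κ) :
    TwS V f ρ ω ω' p κ μ ν (fun _ => 0) where
  smo := Smo.zero
  l2' := by rw [fl_zero D hκ]; exact L2.zero

theorem TwS.add (D : Dbl V W f ρ f' ρ' ω ω') (hκ : DenseRange κ) (ha : TwS V f ρ ω ω' p κ μ ν a)
    (hb : TwS V f ρ ω ω' p κ μ ν b) : TwS V f ρ ω ω' p κ μ ν (fun x => a x + b x) where
  smo := ha.smo.add hb.smo
  l2' := by
    rw [fl_add D hκ ha.smo.acont hb.smo.acont]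
    exact L2.add ha.l2' hb.l2'

theorem TwS.smul (D : Dbl V W f ρ f' ρ' ω ω') (hκ : DenseRange κ) (c : ℂ)
    (hb : TwS V f ρ ω ω' p κ μ ν b) : TwS V f ρ ω ω' p κ μ ν (fun x => c • b x) where
  smo := hb.smo.smul c
  l2' := by
    rw [fl_smul D hκ c hb.smo.acont]
    exact L2.smul c hb.l2'

theorem TwS.neg (D : Dbl V W f ρ f' ρ' ω ω') (hκ : DenseRange κ)
    (hb : TwS V f ρ ω ω' p κ μ ν b) : TwS V f ρ ω ω' p κ μ ν (fun x => - b x) := by
  have h := hb.smul D hκ (-1)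
  simpa using h

theorem TwS.sub (D : Dbl V W f ρ f' ρ' ω ω') (hκ : DenseRange κ) (ha : TwS V f ρ ω ω' p κ μ ν a)
    (hb : TwS V f ρ ω ω' p κ μ ν b) : TwS V f ρ ω ω' p κ μ ν (fun x => a x - b x) := by
  have h := ha.add D hκ (hb.neg D hκ)
  simpa [sub_eq_add_neg] using h

/-- left ideal -/
theorem TwS.mul_left (D : Dbl V W f ρ f' ρ' ω ω') (hκ : DenseRange κ) (ha : Fd (p.comp f) ρ a)
    (ha' : ACont κ V a) (hb : TwS V f ρ ω ω' p κ μ ν b) :
    TwS V f ρ ω ω' p κ μ ν (fun x => a x * b x) where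
  smo := ⟨ha.mul hb.smo.toFd, ACont.mul D.fr ha' hb.smo.acont ha.bdd hb.smo.bdd,
    l2_mul ha hb.smo.toFd hb.smo.l2⟩
  l2' := by
    rw [fl_mul D hκ ha hb.smo.toFd ha' hb.smo.acont]
    exact l2_mul (fd_fl D hκ ha ha') (fd_fl D hκ hb.smo.toFd hb.smo.acont) hb.l2'

/-- right ideal -/
theorem TwS.mul_right (D : Dbl V W f ρ f' ρ' ω ω') (hκ : DenseRange κ)
    (ha : TwS V f ρ ω ω' p κ μ ν a) (hb : Fd (p.comp f) ρ b) (hb' : ACont κ V b) :
    TwS V f ρ ω ω' p κ μ ν (fun x => a x * b x) where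
  smo := ⟨ha.smo.toFd.mul hb, ACont.mul D.fr ha.smo.acont hb' ha.smo.bdd hb.bdd,
    L2.mul_right D.fr.reg ha.smo.toFd hb ha.smo.l2⟩
  l2' := by
    rw [fl_mul D hκ ha.smo.toFd hb ha.smo.acont hb']
    exact L2.mul_right D.fr'.reg (fd_fl D hκ ha.smo.toFd ha.smo.acont) (fd_fl D hκ hb hb') ha.l2'

theorem TwS.mul (D : Dbl V W f ρ f' ρ' ω ω') (hκ : DenseRange κ)
    (ha : TwS V f ρ ω ω' p κ μ ν a) (hb : TwS V f ρ ω ω' p κ μ ν b) :
    TwS V f ρ ω ω' p κ μ ν (fun x => a x * b x) :=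
  hb.mul_left D hκ ha.smo.toFd ha.smo.acont

theorem TwS.adj (D : Dbl V W f ρ f' ρ' ω ω') (hκ : DenseRange κ)
    (hb : TwS V f ρ ω ω' p κ μ ν b) : TwS V f ρ ω ω' p κ μ ν (fun x => adjoint (b x)) where
  smo := hb.smo.adj D.fr
  l2' := by
    rw [fl_adj D hκ hb.smo.acont]
    exact L2.adj D.fr'.reg (fd_fl D hκ hb.smo.toFd hb.smo.acont) hb.l2'

theorem TwS.rt [μ.IsMulRightInvariant] (D : Dbl V W f ρ f' ρ' ω ω') (hκ : DenseRange κ)
    (hp : DenseRange p) (hb : TwS V f ρ ω ω' p κ μ ν b) (y : G) :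
    TwS V f ρ ω ω' p κ μ ν (fun x => b (x * y)) where
  smo := hb.smo.rt y
  l2' := by
    rw [fl_rt D hκ hp hb.smo.toFd hb.smo.acont]
    exact (smo_al D.fr' hp (hb.smo' D hκ) y).l2

theorem TwS.al [ν.IsMulRightInvariant] (D : Dbl V W f ρ f' ρ' ω ω') (hκ : DenseRange κ)
    (hb : TwS V f ρ ω ω' p κ μ ν b) (k : H) :
    TwS V f ρ ω ω' p κ μ ν (al κ V k b) where
  smo := smo_al D.fr hκ hb.smo k
  l2' := by
    rw [fl_al D hκ hb.smo.acont]
    exact L2.rt (fd_fl D hκ hb.smo.toFd hb.smo.acont) hb.l2' k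

end tws

end Vale.Agent.P092.QT.H715.Q
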